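import Mathlib
import Vale.Agent.Lib.Steinitz.Final

namespace Vale.Agent.Results.P262.SteinitzLog

open Finset

/-- There is an absolute constant `C` such that every zero-sum family of vectors of the Euclidean
unit ball of `ℝ^d` (of any length `N`) can be ordered with all partial sums of norm at most
`C √(d log (d+1))`. -/
theorem result : ∃ C : ℝ, ∀ d : ℕ, 1 ≤ d → ∀ (N : ℕ) (v : Fin N → EuclideanSpace ℝ (Fin d)),
    (∀ i, ‖v i‖ ≤ 1) → ∑ i, v i = 0 →
    ∃ π : Equiv.Perm (Fin N), ∀ k : ℕ, k ≤ N →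
      ‖∑ i : Fin N with i.val < k, v (π i)‖ ≤ C * Real.sqrt (d * Real.log (d + 1)) :=
  Vale.Agent.Steinitz.steinitz_log

end Vale.Agent.Results.P262.SteinitzLog
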